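import Vale.Agent.P168.MathlibUsed

open MeasureTheory ProbabilityTheory
open scoped NNReal

namespace Vale.Agent.P168

/-- The unit interval with Lebesgue measure. -/
abbrev U01 : Type := unitInterval

/-- The two spin values: `true` stands for `+1`, `false` for `-1`. -/
def spin (s : Bool) : ℝ := if s then 1 else -1

/-- The data `(a, b, (f_1, …, f_K))` of one random interaction. -/
abbrev Clause (K : ℕ) : Type := ℝ × ℝ × (Fin K → Bool → ℝ)

/-- The usual (product) σ-algebra on `Clause K`; named only to shorten printed terms. -/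
instance clauseSpace (K : ℕ) : MeasurableSpace (Clause K) := Prod.instMeasurableSpace

/-- `θ(σ_1, …, σ_K) = log (a (1 + b f_1(σ_1) ⋯ f_K(σ_K)))`. -/
noncomputable def theta {K : ℕ} (c : Clause K) (σ : Fin K → Bool) : ℝ :=
  Real.log (c.1 * (1 + c.2.1 * ∏ j, c.2.2 j (σ j)))

/-- The class of the problem: `K` is even, `a > 0`, `b ∈ (-1, 1)`, `|f_j| ≤ 1`, the `f_j` are
i.i.d. and independent of `b`, `E (-b)^n ≥ 0` for `n ≥ 1`, `E max |θ| < ∞` and `E |h| < ∞`. -/
structure InClass (K : ℕ) (ρ : Measure (Clause K)) (ν : Measure ℝ) : Prop where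
  two_le : 2 ≤ K
  even : Even K
  prob_clause : IsProbabilityMeasure ρ
  prob_field : IsProbabilityMeasure ν
  a_pos : ∀ᵐ c ∂ρ, 0 < c.1
  b_mem : ∀ᵐ c ∂ρ, c.2.1 ∈ Set.Ioo (-1 : ℝ) 1
  f_mem : ∀ᵐ c ∂ρ, ∀ j s, c.2.2 j s ∈ Set.Icc (-1 : ℝ) 1
  indep : ∃ (β : Measure ℝ) (φ : Measure (Bool → ℝ)), IsProbabilityMeasure β ∧
    IsProbabilityMeasure φ ∧ ρ.map Prod.snd = β.prod (Measure.pi fun _ : Fin K => φ)
  positivity : ∀ n : ℕ, 1 ≤ n → 0 ≤ ∫ c, (-c.2.1) ^ n ∂ρ
  theta_int : ∀ σ, Integrable (fun c => theta c σ) ρ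
  field_int : Integrable (fun h => h) ν

/-- The uniform probability measure on `{1, …, N}`. -/
noncomputable def unif (N : ℕ) : Measure (Fin N) := uniformOn Set.univ

/-- The partition function of the system on `N` sites with `n` interactions, the `k`-th one having
data `(ω k).1` and acting on the sites `(ω k).2 j`, and with external fields `h v`. -/
noncomputable def partitionFn {K N n : ℕ} (ω : Fin n → Clause K × (Fin K → Fin N))
    (h : Fin N → ℝ) : ℝ :=
  ∑ σ : Fin N → Bool,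
    Real.exp (∑ k, theta (ω k).1 (fun j => σ ((ω k).2 j)) + ∑ v, h v * spin (σ v))

/-- The pressure `F_N = (1/N) E log ∑_σ exp H_N(σ)`: the number of interactions is Poisson of mean
`λ N`, each interaction has law `ρ` and i.i.d. uniform sites, the fields have law `ν`. -/
noncomputable def pressure {K : ℕ} (lam : ℝ≥0) (ρ : Measure (Clause K)) (ν : Measure ℝ)
    (N : ℕ) : ℝ :=
  (1 / (N : ℝ)) * ∫ n : ℕ, (∫ ω : Fin n → Clause K × (Fin K → Fin N), (∫ h : Fin N → ℝ,
      Real.log (partitionFn ω h) ∂(Measure.pi fun _ => ν))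
      ∂(Measure.pi fun _ => ρ.prod (Measure.pi fun _ => unif N)))
    ∂(poissonMeasure (lam * N))

/-- The number `Y_0` obtained from `Y_r = Y` by the recursion `Y_{p-1} = (E_p Y_p^{m_p})^{1/m_p}`,
`p = r, …, 1`. Here `Y` is a function of `r` independent levels of randomness, each of law `P`;
`m 0 = m_1` belongs to the first level, and the recursion peels off the first level. -/
noncomputable def nest {W : Type} [MeasurableSpace W] (P : Measure W) (r : ℕ) :
    (Fin r → ℝ) → ((Fin r → W) → ℝ) → ℝ :=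
  Nat.rec (fun _ Y => Y Fin.elim0) (fun _ ih m Y =>
    (∫ u, (ih (Fin.tail m) fun v => Y (Fin.cons u v)) ^ m 0 ∂P) ^ (1 / m 0)) r

/-- `∑_{σ_ℓ = ε} e^{θ(σ)} ∏_{j ≠ ℓ} (1 + y_j σ_j) / 2`. -/
noncomputable def cavityFactor {K : ℕ} (c : Clause K) (l : Fin K) (y : Fin K → ℝ)
    (e : Bool) : ℝ :=
  ∑ σ : Fin K → Bool, if σ l = e then
    Real.exp (theta c σ) * ∏ j ∈ Finset.univ.erase l, (1 + y j * spin (σ j)) / 2 else 0

/-- `∑_σ e^{θ(σ)} ∏_j (1 + y_j σ_j) / 2`. -/
noncomputable def edgeFactor {K : ℕ} (c : Clause K) (y : Fin K → ℝ) : ℝ :=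
  ∑ σ : Fin K → Bool, Real.exp (theta c σ) * ∏ j, (1 + y j * spin (σ j)) / 2

/-- The message with index `i`, as a function of its level-`0` variable `w i` and its variables
`v p i` of the levels `p = 1, …, r`. -/
def message {r : ℕ} {ι : Type} (x : (Fin (r + 1) → U01) → ℝ) (w : ι → U01)
    (v : Fin r → ι → U01) (i : ι) : ℝ :=
  x (Fin.cons (w i) fun p => v p i)

/-- `𝒯 Y = E log Y_0` for `Y` built from messages with index set `ι`, given the further
randomness: `w` are the level-`0` variables of the messages, `v p` their level-`p` variables. -/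
noncomputable def hierLog {ι : Type} [Fintype ι] (r : ℕ) (m : Fin r → ℝ)
    (Y : (ι → U01) → (Fin r → ι → U01) → ℝ) : ℝ :=
  ∫ w, Real.log (nest volume r m (Y w))

/-- `𝒯 U`, with messages indexed by `Fin n × Fin K`, `n` being the number of interactions. -/
noncomputable def trialU {K : ℕ} (lam : ℝ≥0) (ρ : Measure (Clause K)) (ν : Measure ℝ) (r : ℕ)
    (m : Fin r → ℝ) (x : (Fin (r + 1) → U01) → ℝ) : ℝ :=
  ∫ n : ℕ, (∫ ω : Fin n → Clause K × Fin K, (∫ h : ℝ,
      hierLog r m (fun w v => ∑ e : Bool, Real.exp (h * spin e) *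
        ∏ k, cavityFactor (ω k).1 (ω k).2 (fun j => message x w v (k, j)) e)
      ∂ν) ∂(Measure.pi fun _ => ρ.prod (unif K)))
    ∂(poissonMeasure (K * lam))

/-- `𝒯 V`. -/
noncomputable def trialV {K : ℕ} (lam : ℝ≥0) (ρ : Measure (Clause K)) (r : ℕ)
    (m : Fin r → ℝ) (x : (Fin (r + 1) → U01) → ℝ) : ℝ :=
  ∫ n : ℕ, (∫ ω : Fin n → Clause K,
      hierLog r m (fun w v => ∏ k, edgeFactor (ω k) fun j => message x w v (k, j))
      ∂(Measure.pi fun _ => ρ))
    ∂(poissonMeasure (((K - 1 : ℕ) : ℝ≥0) * lam))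

/-- Admissible parameters of depth `r`: `0 < m_1 < ⋯ < m_r < 1` and `x : [0,1]^{r+1} → [-1,1]`
measurable. -/
def IsTrial (r : ℕ) (m : Fin r → ℝ) (x : (Fin (r + 1) → U01) → ℝ) : Prop :=
  StrictMono m ∧ (∀ p, m p ∈ Set.Ioo (0 : ℝ) 1) ∧ Measurable x ∧ ∀ w, x w ∈ Set.Icc (-1 : ℝ) 1

/-- `Φ_r`, the infimum of `𝒯 U - 𝒯 V` over the admissible parameters of depth `r`. -/
noncomputable def phi {K : ℕ} (lam : ℝ≥0) (ρ : Measure (Clause K)) (ν : Measure ℝ)
    (r : ℕ) : EReal :=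
  ⨅ (m : Fin r → ℝ) (x : (Fin (r + 1) → U01) → ℝ) (_ : IsTrial r m x),
    ((trialU lam ρ ν r m x - trialV lam ρ r m x : ℝ) : EReal)

/-- `inf_{r ≥ 0} Φ_r`. -/
noncomputable def mezardParisi {K : ℕ} (lam : ℝ≥0) (ρ : Measure (Clause K))
    (ν : Measure ℝ) : EReal :=
  ⨅ r, phi lam ρ ν r

end Vale.Agent.P168
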