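import Mathlib.Algebra.Order.Chebyshev
import Mathlib.Analysis.Analytic.Binomial
import Mathlib.Analysis.Calculus.Deriv.Polynomial
import Mathlib.Computability.Reduce
import Mathlib.Data.Nat.Dist
import Mathlib.Data.Rat.Star
import Mathlib.MeasureTheory.Function.Floor
import Mathlib.MeasureTheory.Order.Group.Lattice
import Mathlib.Order.CompletePartialOrder
import Mathlib.Probability.Distributions.Poisson.Basic
import Mathlib.Probability.Kernel.Representation
import Mathlib.Tactic
import Mathlib.Topology.UniformSpace.Uniformizable

/-! The part of Mathlib that the development of this folder uses. -/
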